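import Mathlib

set_option autoImplicit false

open Finset

namespace Vale.Agent.Results.P322.CoordinatewiseAll

noncomputable section

/-- Binary symmetric channel: probability of output `b` on input `a`, crossover `ε`. -/
def bsc (ε : ℝ) (a b : Bool) : ℝ := if a = b then 1 - ε else ε

/-- Joint law of `(f X, Y i)`: `X` uniform on the cube, `Y i` the output of the channel on `X i`. -/
def joint {n : ℕ} (f : (Fin n → Bool) → Bool) (i : Fin n) (ε : ℝ) (u v : Bool) : ℝ :=
  (∑ x : Fin n → Bool, if f x = u then bsc ε (x i) v else 0) / 2 ^ n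

/-- Mutual information in bits of a joint law on `Bool × Bool`. -/
def mutualInfo (P : Bool → Bool → ℝ) : ℝ :=
  ∑ u, ∑ v, P u v * Real.logb 2 (P u v / ((∑ w, P u w) * (∑ w, P w v)))

/-- Binary entropy in bits. -/
def h2 (ε : ℝ) : ℝ := -(ε * Real.logb 2 ε) - (1 - ε) * Real.logb 2 (1 - ε)

/-- The auxiliary convex function. -/
private def psi (x : ℝ) : ℝ := (1 + x) * Real.log (1 + x) + (1 - x) * Real.log (1 - x)

private lemma psi_neg (x : ℝ) : psi (-x) = psi x := by
  simp only [psi]
  rw [sub_neg_eq_add, ← sub_eq_add_neg]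
  ring

private lemma psi_nonneg {x : ℝ} (h0 : |x| ≤ 1) : 0 ≤ psi x := by
  have h1 : ∀ t : ℝ, 0 ≤ t → t - 1 ≤ t * Real.log t := by
    intro t ht
    rcases ht.eq_or_lt with rfl | ht
    · simp
    have := Real.one_sub_inv_le_log_of_pos ht
    have h2 : t * (1 - t⁻¹) ≤ t * Real.log t := mul_le_mul_of_nonneg_left this ht.le
    have h3 : t * (1 - t⁻¹) = t - 1 := by field_simp
    linarith
  have ha := abs_le.mp h0
  have h2 := h1 (1 + x) (by linarith)
  have h3 := h1 (1 - x) (by linarith)
  simp only [psi]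
  linarith

/-- Series comparison for the logarithmic odd function. -/
private lemma L_scale {l x : ℝ} (hl0 : 0 ≤ l) (hl1 : l ≤ 1) (hx0 : 0 ≤ x) (hx1 : x < 1) :
    Real.log (1 + l * x) - Real.log (1 - l * x) ≤ l * (Real.log (1 + x) - Real.log (1 - x)) := by
  have hlx : |l * x| < 1 := by
    rw [abs_of_nonneg (mul_nonneg hl0 hx0)]
    nlinarith
  have hx : |x| < 1 := by rwa [abs_of_nonneg hx0]
  have s1 := Real.hasSum_log_sub_log_of_abs_lt_one hlx
  have s2 := (Real.hasSum_log_sub_log_of_abs_lt_one hx).mul_left l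
  refine hasSum_le (fun k => ?_) s1 s2
  have h1 : (l * x) ^ (2 * k + 1) ≤ l * x ^ (2 * k + 1) := by
    rw [mul_pow]
    have h2 : l ^ (2 * k + 1) ≤ l := by
      calc l ^ (2 * k + 1) ≤ l ^ 1 := pow_le_pow_of_le_one hl0 hl1 (by omega)
        _ = l := pow_one l
    exact mul_le_mul_of_nonneg_right h2 (pow_nonneg hx0 _)
  have h3 : (0 : ℝ) ≤ 2 * (1 / (2 * k + 1)) := by positivity
  calc _ = (2 * (1 / (2 * (k : ℝ) + 1))) * (l * x) ^ (2 * k + 1) := by ring
    _ ≤ (2 * (1 / (2 * (k : ℝ) + 1))) * (l * x ^ (2 * k + 1)) :=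
        mul_le_mul_of_nonneg_left h1 h3
    _ = _ := by ring

private lemma psi_continuous : Continuous psi := by
  have h : psi = fun x => (fun t => t * Real.log t) (1 + x) + (fun t => t * Real.log t) (1 - x) := by
    funext x
    simp [psi]
  rw [h]
  exact (Real.continuous_mul_log.comp (by fun_prop)).add (Real.continuous_mul_log.comp (by fun_prop))

private lemma hasDeriv_psi {x : ℝ} (h0 : |x| < 1) :
    HasDerivAt psi (Real.log (1 + x) - Real.log (1 - x)) x := by
  have ha := abs_lt.mp h0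
  have h1 : (1 + x) ≠ 0 := by linarith
  have h2 : (1 - x) ≠ 0 := by linarith
  have d1 : HasDerivAt (fun y : ℝ => 1 + y) 1 x := by
    simpa using (hasDerivAt_id x).const_add 1
  have d2 : HasDerivAt (fun y : ℝ => 1 - y) (-1) x := by
    simpa using (hasDerivAt_id x).const_sub 1
  have e1 := d1.mul (d1.log h1)
  have e2 := d2.mul (d2.log h2)
  have := e1.add e2
  refine this.congr_deriv ?_
  field_simp
  ring

/-- The scaling lemma `ψ(λ x) ≤ λ² ψ(x)`. -/
private lemma psi_scale {l x : ℝ} (hl0 : 0 ≤ l) (hl1 : l ≤ 1) (hx0 : 0 ≤ x) (hx1 : x ≤ 1) :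
    psi (l * x) ≤ l ^ 2 * psi x := by
  -- monotonicity of `g y = l^2 ψ(y) - ψ(l y)` on `[0,1]`
  let g : ℝ → ℝ := fun y => l ^ 2 * psi y - psi (l * y)
  have hgc : Continuous g := by
    have : Continuous fun y => psi (l * y) := psi_continuous.comp (by fun_prop)
    exact (continuous_const.mul psi_continuous).sub this
  have hgd : ∀ y ∈ interior (Set.Icc (0 : ℝ) 1), HasDerivAt g
      (l ^ 2 * (Real.log (1 + y) - Real.log (1 - y))
        - (Real.log (1 + l * y) - Real.log (1 - l * y)) * l) y := by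
    intro y hy
    rw [interior_Icc] at hy
    have hy1 : |y| < 1 := by rw [abs_of_pos hy.1]; exact hy.2
    have hly : |l * y| < 1 := by
      rw [abs_of_nonneg (mul_nonneg hl0 hy.1.le)]
      nlinarith [hy.1, hy.2]
    have d1 := (hasDeriv_psi hy1).const_mul (l ^ 2)
    have d2 : HasDerivAt (fun z => psi (l * z))
        ((Real.log (1 + l * y) - Real.log (1 - l * y)) * l) y := by
      have d3 : HasDerivAt (fun z : ℝ => l * z) l y := by
        simpa using (hasDerivAt_id y).const_mul l
      exact HasDerivAt.comp y (hasDeriv_psi hly) d3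
    exact d1.sub d2
  have hmono : MonotoneOn g (Set.Icc (0 : ℝ) 1) := by
    apply monotoneOn_of_deriv_nonneg (convex_Icc 0 1) hgc.continuousOn
    · intro y hy
      exact (hgd y hy).differentiableAt.differentiableWithinAt
    · intro y hy
      rw [(hgd y hy).deriv]
      rw [interior_Icc] at hy
      have := L_scale hl0 hl1 hy.1.le hy.2
      have h3 := mul_le_mul_of_nonneg_right this hl0
      nlinarith
  have h0 : g 0 = 0 := by
    simp [g, psi]
  have h1 := hmono (Set.left_mem_Icc.mpr zero_le_one) ⟨hx0, hx1⟩ hx0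
  rw [h0] at h1
  simp only [g] at h1
  linarith

private lemma psi_scale' {b x : ℝ} (hb : |b| ≤ 1) (hx0 : 0 ≤ x) (hx1 : x ≤ 1) :
    psi (b * x) ≤ b ^ 2 * psi x := by
  rcases le_total 0 b with h | h
  · rw [abs_of_nonneg h] at hb
    exact psi_scale h hb hx0 hx1
  · rw [abs_of_nonpos h] at hb
    have := psi_scale (l := -b) (by linarith) hb hx0 hx1
    rw [neg_mul, psi_neg, neg_sq] at this
    exact this

/-- Character of the coordinate `i`. -/
private def chi {n : ℕ} (i : Fin n) (x : Fin n → Bool) : ℝ := if x i then 1 else -1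

private def flip {n : ℕ} (i : Fin n) : (Fin n → Bool) ≃ (Fin n → Bool) where
  toFun x := Function.update x i (!x i)
  invFun x := Function.update x i (!x i)
  left_inv x := by
    funext j
    by_cases h : j = i
    · subst h; simp
    · simp [Function.update_of_ne h]
  right_inv x := by
    funext j
    by_cases h : j = i
    · subst h; simp
    · simp [Function.update_of_ne h]

private lemma chi_flip {n : ℕ} (i : Fin n) (x : Fin n → Bool) : chi i (flip i x) = - chi i x := by
  simp only [chi, flip, Equiv.coe_fn_mk, Function.update_self]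
  cases x i <;> simp

private lemma chi_flip_ne {n : ℕ} {i j : Fin n} (h : j ≠ i) (x : Fin n → Bool) :
    chi j (flip i x) = chi j x := by
  simp [chi, flip, Function.update_of_ne h]

private lemma sum_chi {n : ℕ} (i : Fin n) : ∑ x, chi i x = 0 := by
  have h := Equiv.sum_comp (flip i) (fun x => chi i x)
  simp only [chi_flip, sum_neg_distrib] at h
  linarith

private lemma sum_chi_mul {n : ℕ} {i j : Fin n} (hij : j ≠ i) :
    ∑ x, chi i x * chi j x = 0 := by
  have h := Equiv.sum_comp (flip i) (fun x => chi i x * chi j x)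
  simp only [chi_flip, chi_flip_ne hij, neg_mul, sum_neg_distrib] at h
  linarith

private lemma chi_sq {n : ℕ} (i : Fin n) (x : Fin n → Bool) : chi i x * chi i x = 1 := by
  simp only [chi]
  cases x i <;> simp

private lemma chi_abs {n : ℕ} (i : Fin n) (x : Fin n → Bool) : |chi i x| = 1 := by
  simp only [chi]
  cases x i <;> simp

/-- Indicator of the event `f = true`. -/
private def ind {n : ℕ} (f : (Fin n → Bool) → Bool) (x : Fin n → Bool) : ℝ := if f x then 1 else 0

private def pp {n : ℕ} (f : (Fin n → Bool) → Bool) : ℝ := (∑ x, ind f x) / 2 ^ n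

private def bb {n : ℕ} (f : (Fin n → Bool) → Bool) (i : Fin n) : ℝ :=
  (∑ x, ind f x * chi i x) / 2 ^ n

private lemma card_cube (n : ℕ) : ∑ _x : Fin n → Bool, (1 : ℝ) = 2 ^ n := by
  simp

private lemma bessel {n : ℕ} (f : (Fin n → Bool) → Bool) :
    ∑ i, bb f i ^ 2 ≤ pp f * (1 - pp f) := by
  set N : ℝ := 2 ^ n with hN
  have hNpos : 0 < N := by positivity
  set p := pp f with hp
  let c : (Fin n → Bool) → ℝ := fun x => ∑ i, bb f i * chi i x
  have h1 : ∑ x, ind f x = N * p := by
    rw [hp, pp, hN]; field_simp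
  have h2 : ∀ i, ∑ x, ind f x * chi i x = N * bb f i := by
    intro i; rw [bb, hN]; field_simp
  have h3 : ∑ x, ind f x * ind f x = N * p := by
    rw [← h1]
    refine sum_congr rfl (fun x _ => ?_)
    simp only [ind]
    split_ifs <;> simp
  have h4 : ∑ x, c x = 0 := by
    simp only [c]
    rw [sum_comm]
    refine sum_eq_zero (fun i _ => ?_)
    rw [← mul_sum, sum_chi, mul_zero]
  have h5 : ∑ x, ind f x * c x = N * ∑ i, bb f i ^ 2 := by
    simp only [c, mul_sum]
    rw [sum_comm]
    refine sum_congr rfl (fun i _ => ?_)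
    have : ∀ x, ind f x * (bb f i * chi i x) = bb f i * (ind f x * chi i x) := fun x => by ring
    simp only [this]
    rw [← mul_sum, h2]
    ring
  have h6 : ∑ x, c x * c x = N * ∑ i, bb f i ^ 2 := by
    have : ∀ x, c x * c x = ∑ i, ∑ j, bb f i * bb f j * (chi i x * chi j x) := by
      intro x
      simp only [c]
      rw [sum_mul_sum]
      refine sum_congr rfl (fun i _ => sum_congr rfl (fun j _ => by ring))
    simp only [this]
    rw [sum_comm]
    rw [mul_sum]
    refine sum_congr rfl (fun i _ => ?_)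
    rw [sum_comm]
    rw [sum_eq_single i]
    · simp only [← mul_sum, chi_sq]
      rw [card_cube]
      ring
    · intro j _ hj
      rw [← mul_sum, sum_chi_mul hj, mul_zero]
    · simp
  have h7 : ∑ x, (1 : ℝ) = N := card_cube n
  have h8 : 0 ≤ ∑ x, (ind f x - p - c x) ^ 2 := sum_nonneg (fun _ _ => sq_nonneg _)
  have h9 : ∑ x, (ind f x - p - c x) ^ 2 = N * p - 2 * p * (N * p) - 2 * (N * ∑ i, bb f i ^ 2)
      + p ^ 2 * N + 2 * p * 0 + N * ∑ i, bb f i ^ 2 := by
    have : ∀ x, (ind f x - p - c x) ^ 2 = ind f x * ind f x - 2 * p * ind f x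
        - 2 * (ind f x * c x) + p ^ 2 * 1 + 2 * p * c x + c x * c x := fun x => by ring
    simp only [this]
    rw [sum_add_distrib, sum_add_distrib, sum_add_distrib, sum_sub_distrib, sum_sub_distrib]
    rw [← mul_sum, ← mul_sum, ← mul_sum, ← mul_sum, h1, h3, h4, h5, h6, h7]
  rw [h9] at h8
  have h10 : 0 ≤ N * (p * (1 - p) - ∑ i, bb f i ^ 2) := by
    have : N * (p * (1 - p) - ∑ i, bb f i ^ 2)
        = N * p - 2 * p * (N * p) - 2 * (N * ∑ i, bb f i ^ 2)
      + p ^ 2 * N + 2 * p * 0 + N * ∑ i, bb f i ^ 2 := by ring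
    rw [this]; exact h8
  have := nonneg_of_mul_nonneg_right h10 hNpos
  linarith

private lemma bsc_eq (ε : ℝ) (a v : Bool) (x : ℝ) (hx : x = if a then 1 else -1) :
    bsc ε a v = (1 + (1 - 2 * ε) * (if v then 1 else -1) * x) / 2 := by
  subst hx
  cases a <;> cases v <;> simp [bsc] <;> ring

private lemma joint_true {n : ℕ} (f : (Fin n → Bool) → Bool) (i : Fin n) (ε : ℝ) (v : Bool) :
    joint f i ε true v = (pp f + (1 - 2 * ε) * (if v then 1 else -1) * bb f i) / 2 := by
  have h : ∀ x : Fin n → Bool, (if f x = true then bsc ε (x i) v else 0)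
      = (ind f x + (1 - 2 * ε) * (if v then 1 else -1) * (ind f x * chi i x)) / 2 := by
    intro x
    rw [bsc_eq ε (x i) v (chi i x) rfl]
    simp only [ind]
    by_cases hf : f x = true
    · simp only [hf, if_true]; ring
    · simp [hf]
  simp only [joint, pp, bb, h]
  rw [← sum_div, sum_add_distrib, ← mul_sum]
  field_simp

private lemma joint_false {n : ℕ} (f : (Fin n → Bool) → Bool) (i : Fin n) (ε : ℝ) (v : Bool) :
    joint f i ε false v = ((1 - pp f) - (1 - 2 * ε) * (if v then 1 else -1) * bb f i) / 2 := by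
  have h : ∀ x : Fin n → Bool, (if f x = false then bsc ε (x i) v else 0)
      = (1 - ind f x + (1 - 2 * ε) * (if v then 1 else -1) * (chi i x - ind f x * chi i x)) / 2 := by
    intro x
    rw [bsc_eq ε (x i) v (chi i x) rfl]
    simp only [ind]
    by_cases hf : f x = false
    · simp only [hf]; simp
    · have : f x = true := by simpa using hf
      simp [this]
  simp only [joint, pp, bb, h]
  rw [← sum_div, sum_add_distrib, ← mul_sum, sum_sub_distrib, sum_sub_distrib, sum_chi,
    card_cube]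
  have hN : (2 : ℝ) ^ n ≠ 0 := by positivity
  field_simp
  ring

private lemma ind_nonneg {n : ℕ} (f : (Fin n → Bool) → Bool) (x : Fin n → Bool) : 0 ≤ ind f x := by
  simp only [ind]; split_ifs <;> norm_num

private lemma ind_le_one {n : ℕ} (f : (Fin n → Bool) → Bool) (x : Fin n → Bool) : ind f x ≤ 1 := by
  simp only [ind]; split_ifs <;> norm_num

private lemma abs_bb_le {n : ℕ} (f : (Fin n → Bool) → Bool) (i : Fin n) :
    |bb f i| ≤ pp f ∧ |bb f i| ≤ 1 - pp f := by
  have hN : (0 : ℝ) < 2 ^ n := by positivity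
  constructor
  · simp only [bb, pp]
    rw [abs_div, abs_of_pos hN]
    apply div_le_div_of_nonneg_right _ hN.le
    calc |∑ x, ind f x * chi i x| ≤ ∑ x, |ind f x * chi i x| := abs_sum_le_sum_abs _ _
      _ = ∑ x, ind f x := by
          refine sum_congr rfl (fun x _ => ?_)
          rw [abs_mul, chi_abs, mul_one, abs_of_nonneg (ind_nonneg f x)]
  · have h1 : bb f i = -((∑ x, (1 - ind f x) * chi i x) / 2 ^ n) := by
      simp only [bb, sub_mul, one_mul]
      rw [sum_sub_distrib, sum_chi]
      ring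
    have h2 : 1 - pp f = (∑ x, (1 - ind f x)) / 2 ^ n := by
      simp only [pp]
      rw [sum_sub_distrib, card_cube]
      field_simp
    rw [h1, abs_neg, h2, abs_div, abs_of_pos hN]
    apply div_le_div_of_nonneg_right _ hN.le
    calc |∑ x, (1 - ind f x) * chi i x| ≤ ∑ x, |(1 - ind f x) * chi i x| := abs_sum_le_sum_abs _ _
      _ = ∑ x, (1 - ind f x) := by
          refine sum_congr rfl (fun x _ => ?_)
          rw [abs_mul, chi_abs, mul_one, abs_of_nonneg (by linarith [ind_le_one f x])]

/-- One term of the mutual information, in nats. -/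
private lemma term_eq {m a : ℝ} (hm : 0 < m) :
    (m + a) / 2 * Real.log ((m + a) / 2 / (m * (1 / 2))) = m / 2 * ((1 + a / m) * Real.log (1 + a / m)) := by
  have h1 : (m + a) / 2 / (m * (1 / 2)) = 1 + a / m := by
    field_simp
  rw [h1]
  have h2 : (m + a) / 2 = m / 2 * (1 + a / m) := by
    field_simp
  rw [h2]
  ring

private lemma mi_bound {n : ℕ} (f : (Fin n → Bool) → Bool) (i : Fin n) {ε : ℝ}
    (h0 : 0 ≤ ε) (h1 : ε ≤ 1 / 2) (hp : 0 < pp f) (hq : 0 < 1 - pp f) :
    mutualInfo (joint f i ε) * Real.log 2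
      ≤ bb f i ^ 2 / (2 * (pp f * (1 - pp f))) * psi (1 - 2 * ε) := by
  set p := pp f with hpdef
  set b := bb f i with hbdef
  set ρ := 1 - 2 * ε with hρ
  have hρ0 : 0 ≤ ρ := by rw [hρ]; linarith
  have hρ1 : ρ ≤ 1 := by rw [hρ]; linarith
  have hlog2 : Real.log 2 ≠ 0 := (Real.log_pos (by norm_num)).ne'
  have hTT := joint_true f i ε true
  have hTF := joint_true f i ε false
  have hFT := joint_false f i ε true
  have hFF := joint_false f i ε false
  simp only [if_true, Bool.false_eq_true, if_false] at hTT hTF hFT hFF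
  rw [← hpdef, ← hbdef, ← hρ] at hTT hTF hFT hFF
  have key : mutualInfo (joint f i ε) * Real.log 2
      = p / 2 * psi (ρ * b / p) + (1 - p) / 2 * psi (ρ * b / (1 - p)) := by
    simp only [mutualInfo, Fintype.sum_bool, hTT, hTF, hFT, hFF, Real.logb]
    have e1 : (p + ρ * 1 * b) / 2 + (p + ρ * -1 * b) / 2 = p := by ring
    have e2 : (1 - p - ρ * 1 * b) / 2 + (1 - p - ρ * -1 * b) / 2 = 1 - p := by ring
    have e3 : (p + ρ * 1 * b) / 2 + (1 - p - ρ * 1 * b) / 2 = 1 / 2 := by ring
    have e4 : (p + ρ * -1 * b) / 2 + (1 - p - ρ * -1 * b) / 2 = 1 / 2 := by ring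
    rw [e1, e2, e3, e4]
    have t1 := term_eq (m := p) (a := ρ * b) hp
    have t2 := term_eq (m := p) (a := -(ρ * b)) hp
    have t3 := term_eq (m := 1 - p) (a := ρ * b) hq
    have t4 := term_eq (m := 1 - p) (a := -(ρ * b)) hq
    have c1 : p + ρ * 1 * b = p + ρ * b := by ring
    have c2 : p + ρ * -1 * b = p + -(ρ * b) := by ring
    have c3 : 1 - p - ρ * 1 * b = 1 - p + -(ρ * b) := by ring
    have c4 : 1 - p - ρ * -1 * b = 1 - p + ρ * b := by ring
    rw [c1, c2, c3, c4]
    simp only [psi]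
    have c5 : -(ρ * b) / p = -(ρ * b / p) := by ring
    have c6 : -(ρ * b) / (1 - p) = -(ρ * b / (1 - p)) := by ring
    rw [c5] at t2
    rw [c6] at t4
    have hsum : ∀ A B C D E F G H l : ℝ, l ≠ 0 →
        (A * (B / l) + C * (D / l) + (E * (F / l) + G * (H / l))) * l
          = A * B + C * D + (E * F + G * H) := by
      intro A B C D E F G H l hl
      field_simp
    rw [hsum _ _ _ _ _ _ _ _ _ hlog2, t1, t2, t3, t4]
    have n1 : (1 + -(ρ * b / p)) = 1 - ρ * b / p := by ring
    have n2 : (1 + -(ρ * b / (1 - p))) = 1 - ρ * b / (1 - p) := by ring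
    rw [n1, n2]
    ring
  have b1 : |b / p| ≤ 1 := by
    rw [abs_div, abs_of_pos hp]
    exact (div_le_one hp).mpr (abs_bb_le f i).1
  have b2 : |b / (1 - p)| ≤ 1 := by
    rw [abs_div, abs_of_pos hq]
    exact (div_le_one hq).mpr (abs_bb_le f i).2
  have s1 : psi (ρ * b / p) ≤ (b / p) ^ 2 * psi ρ := by
    have : ρ * b / p = b / p * ρ := by ring
    rw [this]
    exact psi_scale' b1 hρ0 hρ1
  have s2 : psi (ρ * b / (1 - p)) ≤ (b / (1 - p)) ^ 2 * psi ρ := by
    have : ρ * b / (1 - p) = b / (1 - p) * ρ := by ring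
    rw [this]
    exact psi_scale' b2 hρ0 hρ1
  rw [key]
  calc p / 2 * psi (ρ * b / p) + (1 - p) / 2 * psi (ρ * b / (1 - p))
      ≤ p / 2 * ((b / p) ^ 2 * psi ρ) + (1 - p) / 2 * ((b / (1 - p)) ^ 2 * psi ρ) :=
        add_le_add (mul_le_mul_of_nonneg_left s1 (by positivity))
          (mul_le_mul_of_nonneg_left s2 (by positivity))
    _ = b ^ 2 / (2 * (p * (1 - p))) * psi ρ := by
        field_simp
        ring

private lemma half_psi {ε : ℝ} (h1 : ε ≤ 1 / 2) :
    psi (1 - 2 * ε) / 2 = (1 - h2 ε) * Real.log 2 := by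
  have hlog2 : Real.log 2 ≠ 0 := (Real.log_pos (by norm_num)).ne'
  have e1 : 1 + (1 - 2 * ε) = 2 * (1 - ε) := by ring
  have e2 : 1 - (1 - 2 * ε) = 2 * ε := by ring
  have e3 : Real.log (2 * (1 - ε)) = Real.log 2 + Real.log (1 - ε) :=
    Real.log_mul (by norm_num) (by linarith)
  have e4 : ε * Real.log (2 * ε) = ε * (Real.log 2 + Real.log ε) := by
    by_cases h : ε = 0
    · simp [h]
    · rw [Real.log_mul (by norm_num) h]
  simp only [psi, h2, Real.logb]
  rw [e1, e2, e3]
  have e5 : 2 * (1 - ε) * (Real.log 2 + Real.log (1 - ε)) + 2 * ε * Real.log (2 * ε)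
      = 2 * (1 - ε) * (Real.log 2 + Real.log (1 - ε)) + 2 * (ε * Real.log (2 * ε)) := by ring
  rw [e5, e4]
  field_simp
  ring

private lemma pp_nonneg {n : ℕ} (f : (Fin n → Bool) → Bool) : 0 ≤ pp f :=
  div_nonneg (sum_nonneg (fun x _ => ind_nonneg f x)) (by positivity)

private lemma pp_le_one {n : ℕ} (f : (Fin n → Bool) → Bool) : pp f ≤ 1 := by
  have hN : (0 : ℝ) < 2 ^ n := by positivity
  rw [pp, div_le_one hN, ← card_cube n]
  exact sum_le_sum (fun x _ => ind_le_one f x)

private lemma mi_zero {n : ℕ} (f : (Fin n → Bool) → Bool) (i : Fin n) (ε : ℝ)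
    (h : pp f = 0 ∨ 1 - pp f = 0) : mutualInfo (joint f i ε) = 0 := by
  have hb : bb f i = 0 := by
    have := abs_bb_le f i
    rcases h with h | h
    · rw [h] at this
      exact abs_nonpos_iff.mp this.1
    · rw [h] at this
      exact abs_nonpos_iff.mp this.2
  have hTT := joint_true f i ε true
  have hTF := joint_true f i ε false
  have hFT := joint_false f i ε true
  have hFF := joint_false f i ε false
  simp only [hb, mul_zero, add_zero, sub_zero] at hTT hTF hFT hFF
  simp only [mutualInfo, Fintype.sum_bool, hTT, hTF, hFT, hFF]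
  rcases h with h | h
  · rw [h]
    norm_num
  · have : pp f = 1 := by linarith
    rw [this]
    norm_num

/-- For every Boolean function `f` on the cube, balanced or not, and every crossover probability
`ε ∈ [0, 1/2]`, the coordinate sum of mutual informations satisfies
`∑ i, I(f(X); Y_i) ≤ 1 - h₂(ε)`. -/
theorem result {n : ℕ} (f : (Fin n → Bool) → Bool) {ε : ℝ} (h0 : 0 ≤ ε) (h1 : ε ≤ 1 / 2) :
    ∑ i, mutualInfo (joint f i ε) ≤ 1 - h2 ε := by
  have hlog2 : 0 < Real.log 2 := Real.log_pos (by norm_num)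
  have hpsi : 0 ≤ psi (1 - 2 * ε) := psi_nonneg (by rw [abs_le]; constructor <;> linarith)
  have hhalf := half_psi h1
  have hgoal0 : 0 ≤ 1 - h2 ε := by
    have : 0 ≤ (1 - h2 ε) * Real.log 2 := by rw [← hhalf]; positivity
    exact nonneg_of_mul_nonneg_left this hlog2
  by_cases hdeg : pp f = 0 ∨ 1 - pp f = 0
  · rw [sum_eq_zero (fun i _ => mi_zero f i ε hdeg)]
    exact hgoal0
  · rw [not_or] at hdeg
    have hp : 0 < pp f := lt_of_le_of_ne (pp_nonneg f) (Ne.symm hdeg.1)
    have hq : 0 < 1 - pp f := lt_of_le_of_ne (by linarith [pp_le_one f]) (Ne.symm hdeg.2)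
    have hpq : 0 < pp f * (1 - pp f) := mul_pos hp hq
    have hb := bessel f
    have h2' : (∑ i, mutualInfo (joint f i ε)) * Real.log 2 ≤ (1 - h2 ε) * Real.log 2 := by
      rw [← hhalf, sum_mul]
      calc ∑ i, mutualInfo (joint f i ε) * Real.log 2
          ≤ ∑ i, bb f i ^ 2 / (2 * (pp f * (1 - pp f))) * psi (1 - 2 * ε) :=
            sum_le_sum (fun i _ => mi_bound f i h0 h1 hp hq)
        _ = (∑ i, bb f i ^ 2) / (2 * (pp f * (1 - pp f))) * psi (1 - 2 * ε) := by
            rw [← sum_mul, sum_div]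
        _ ≤ 1 / 2 * psi (1 - 2 * ε) := by
            apply mul_le_mul_of_nonneg_right _ hpsi
            rw [div_le_iff₀ (by positivity)]
            linarith
        _ = psi (1 - 2 * ε) / 2 := by ring
    exact le_of_mul_le_mul_right h2' hlog2

end

end Vale.Agent.Results.P322.CoordinatewiseAll
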